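import Vale.Agent.P011.D4I.H691.Tr
import Vale.Agent.P011.D4I.H68.Nf
import Vale.Agent.P011.D4I.H547.Cent
import Vale.Agent.P011.D4I.H657.Bas
import Vale.Agent.P011.D4I.H64.F4
import Vale.Agent.P011.D4I.H659.Gen
import Vale.Agent.P011.D4I.H63.Mix
import Vale.Agent.P011.D4I.H691.StabOf
import Vale.Agent.P011.D4I.H547.PartC

/-!
Block D4I: the final assembly.
-/

open NumberField Topology

set_option linter.unusedSectionVars false

namespace Vale.Agent.P011.D4I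

open Vale.Agent.P011.MPQ Vale.Agent.P011.D4 Vale.Agent.P011.D4.Oct Vale.Agent.P011.E6
open Vale.Agent.P011.D4T

section fin

variable {k L E : Type} [Field k] [NumberField k] [Field L] [NumberField L] [Field E]
  [Algebra k L] [Algebra k E] [Algebra L E]
  [IsScalarTower k L E] [NeZero (2 : E)] {ρ σ ι : E ≃ₐ[k] E} {α : E}
  {a b c : kˣ} {q : Lˣ} (H : HyI ρ σ ι α a b c q)

include H

/-- The sign of the class of an element which commutes with the standard involution. -/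
theorem sign_stab0 {z : ATI ρ σ ι α a b c q} (hz : z ∈ stab0I ρ σ ι α a b c q) :
    ∃ (t κ' : Lˣ), t ∈ SqL k L ∧ kapI z = t * κ' ∧
      ∀ w : L →+* ℝ, w (algebraMap k L a) < 0 → 0 < w (κ' : L) := by
  obtain ⟨x0, x, s, l, h1, h2⟩ := cent H hz
  obtain ⟨z1, -, hz1, hz2⟩ := exists_z H x0 x s h1
  have hν0 : nrd x ≠ 0 := by
    intro h0
    rw [h0, map_zero, zero_mul, zero_mul, mul_zero] at h1
    exact pow_ne_zero 2 s.ne_zero ((map_eq_zero_iff _ (algebraMap k E).injective).1 h1.symm)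
  have e1 : z = H.scal l * z1 := by
    apply Subtype.ext
    apply LinearEquiv.ext
    intro y
    rw [h2, ← hz2, ← H.scal_apply]
    rfl
  have e2 : kapI z1 = (Units.mk0 (nrd x) hν0)⁻¹ := by
    apply kapI_eq
    apply hz1
    rw [Units.val_inv_eq_inv_val]
    exact mul_inv_cancel₀ hν0
  refine ⟨kapI (H.scal l), (Units.mk0 (nrd x) hν0)⁻¹, scal_mem_SqLI H l, ?_, fun w hw => ?_⟩
  · rw [e1, kapI_mul, e2]
  · rw [Units.val_inv_eq_inv_val, map_inv₀, inv_pos]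
    change 0 < w (nrd x)
    obtain ⟨hb, -, hq⟩ := H.hreL w hw
    have hne : w (nrd x) ≠ 0 := (map_ne_zero_iff w w.injective).2 hν0
    have hge : 0 ≤ w (nrd x) := by
      have hA : w ((up L a : Lˣ) : L) < 0 := hw
      have hB : w ((q * up L b : Lˣ) : L) < 0 := by
        rw [Units.val_mul, map_mul]
        exact mul_neg_of_pos_of_neg hq hb
      simp only [nrd, map_add, map_sub, map_mul, map_pow]
      have h3 := mul_nonneg (neg_nonneg.2 hA.le) (sq_nonneg (w x.imI))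
      have h4 := mul_nonneg (neg_nonneg.2 hB.le) (sq_nonneg (w x.imJ))
      have h5 := mul_nonneg (mul_nonneg_of_nonpos_of_nonpos hA.le hB.le) (sq_nonneg (w x.imK))
      have h6 := sq_nonneg (w x.re)
      linarith
    exact lt_of_le_of_ne hge (Ne.symm hne)

/-- F1: the elements of class one in a centraliser. -/
theorem H68.stab_NF (ho : HOdd a q) {b' c' : kˣ} {j l : Oct a b c} (h : Trip a b' c' gi j l)
    {z : ATI ρ σ ι α a b c q} (hz : z ∈ stabI ρ σ ι α q h) {κ : Lˣ} (hκ : IsKapI ρ z.1 κ)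
    (hcl : κ ∈ SqL k L) : IsNI ρ σ ι α a b c q z :=
  stab_NI_of H h (fun _ _ _ h0 h1 _ hg => H63.mix_mem (hyTripI H h) ho h0 h1 hg) hz hκ hcl

/-- KC + Z5: the parts of the same class in the centralisers of two involutions of the standard
plane are congruent. -/
theorem H68.part_F (ho : HOdd a q) {b' c' : kˣ} {j l : Oct a b c} (h : Trip a b' c' gi j l) {D : k}
    (hD : GoodD a b q D) (hD' : GoodD a b' q D) (hns : ∀ e : E, e * e ≠ algebraMap k E D)
    {x y : L} (κ : Lˣ)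
    (hκ : (κ : L) = x ^ 2 - algebraMap k L D * y ^ 2) :
    ∃ w w' : ATI ρ σ ι α a b c q, w ∈ stab0I ρ σ ι α a b c q ∧ w' ∈ stabI ρ σ ι α q h ∧
      IsKapI ρ w.1 κ ∧ IsKapI ρ w'.1 κ ∧ IsNI ρ σ ι α a b c q (w * w'⁻¹) :=
  part_of H (fun _ _ _ _ _ _ _ _ _ _ _ _ _ _ H1 ho1 _ _ _ _ h _ hz _ hκ hcl =>
    H68.stab_NF H1 ho1 h hz hκ hcl) ho h hD hD' hns κ hκ

/-- The centralisers are congruent to the centraliser of the standard involution. -/
theorem stab_le (ho : HOdd a q) {b' c' : kˣ} {j l : Oct a b c} (h : Trip a b' c' gi j l) :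
    stabI ρ σ ι α q h ≤ H.NA ⊔ stab0I ρ σ ι α a b c q := by
  intro z hz
  have H' : HyI ρ σ ι α a b' c' q := hyTripI H h
  -- the class of `z`
  obtain ⟨z', hz', rfl⟩ := exists_of_mem_stabI h hz
  obtain ⟨t, κ', ht, hkt, hs⟩ := sign_stab0 H' hz'
  rw [← kapI_cjAI h] at hkt
  set z := cjAI ρ σ ι α q h z' with hzdef
  obtain ⟨D, x, y, e, hD, hp⟩ := F4 H ho h κ' hs
  have hne : ∀ i, x i ^ 2 - algebraMap k L (D i) * y i ^ 2 ≠ 0 := by
    intro i h0
    have h1 : ∏ i, (x i ^ 2 - algebraMap k L (D i) * y i ^ 2) = 0 :=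
      Finset.prod_eq_zero (Finset.mem_univ i) h0
    rw [h1, mul_zero] at hp
    exact κ'.ne_zero hp
  choose w w' hw hw' hwk hwk' hww using fun i =>
    H68.part_F H ho h (hD i).1 (hD i).2.1 (hD i).2.2 (x := x i) (y := y i)
      (Units.mk0 _ (hne i)) rfl
  -- the product of the parts
  have key : ∀ i, w' i ∈ H.NA ⊔ stab0I ρ σ ι α a b c q := by
    intro i
    have h1 : w i * (w' i)⁻¹ ∈ H.NA := hww i
    have h2 : w' i = (w i * (w' i)⁻¹)⁻¹ * w i := by group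
    rw [h2]
    exact Subgroup.mul_mem _ (Subgroup.mem_sup_left (H.NA.inv_mem h1))
      (Subgroup.mem_sup_right (hw i))
  let u : ATI ρ σ ι α a b c q := w' 0 * w' 1 * w' 2
  have hu : u ∈ stabI ρ σ ι α q h := Subgroup.mul_mem _ (Subgroup.mul_mem _ (hw' 0) (hw' 1)) (hw' 2)
  have hu' : u ∈ H.NA ⊔ stab0I ρ σ ι α a b c q :=
    Subgroup.mul_mem _ (Subgroup.mul_mem _ (key 0) (key 1)) (key 2)
  have hku : kapI u = Units.mk0 _ (hne 0) * Units.mk0 _ (hne 1) * Units.mk0 _ (hne 2) := by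
    rw [kapI_mul, kapI_mul, kapI_eq (hwk' 0), kapI_eq (hwk' 1), kapI_eq (hwk' 2)]
  have hκ : κ' = up L e * kapI u := by
    apply Units.ext
    rw [hp, hku, Fin.prod_univ_three]
    rfl
  have hcl : kapI (z * u⁻¹) ∈ SqL k L := by
    rw [kapI_mul, kapI_inv, hkt, hκ]
    have : t * (up L e * kapI u) * (kapI u)⁻¹ = t * up L e := by
      rw [mul_assoc, mul_inv_cancel_right]
    rw [this]
    refine Subgroup.mul_mem _ ht ?_
    rw [mem_SqL]
    exact ⟨e, 1, by rw [one_pow, mul_one]⟩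
  have hN : z * u⁻¹ ∈ H.NA :=
    H68.stab_NF H ho h (Subgroup.mul_mem _ hz (Subgroup.inv_mem _ hu)) (isKapI_kapI _) hcl
  have hzu : z = z * u⁻¹ * u := by group
  rw [hzu]
  exact Subgroup.mul_mem _ (Subgroup.mem_sup_left hN) hu'

omit H in
/-- The end of the proof, with explicit arguments. -/
theorem H68.fin' {A Θ J : Type} [Group A] [CommGroup Θ] (N : Subgroup A) (hn : N.Normal)
    (S0 : Subgroup Θ) (f : A →* Θ) (S : J → Subgroup A)
    (ha : ∀ i, ∀ z ∈ S i, f z ∈ S0 → z ∈ N) (hc : ⊥ ⊔ ⨆ i, S i = ⊤) (hN : ∀ z ∈ N, f z ∈ S0)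
    (i₀ : J) (hd : ∀ i, S i ≤ N ⊔ S i₀) {g : A} (hg : f g ∈ S0) : g ∈ N := by
  have key : ∀ z : A, ((QuotientGroup.mk' S0).comp f) z = 1 ↔ f z ∈ S0 := fun z =>
    QuotientGroup.eq_one_iff (f z)
  exact D4T.fin (cl := (QuotientGroup.mk' S0).comp f) (P := ⊥) (H := S)
    (fun i z hz h => ha i z hz ((key z).1 h)) (fun _ => bot_le) hc
    (fun z hz => MonoidHom.mem_ker.2 ((key z).2 (hN z hz))) i₀ hd ((key g).2 hg)

/-- The index set of the involutions of the standard plane. -/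
abbrev TII (a b c : kˣ) : Type :=
  {p : kˣ × kˣ × Oct a b c × Oct a b c // Trip a p.1 p.2.1 gi p.2.2.1 p.2.2.2}

omit H in
theorem iSup_stabI (h : stabsI ρ σ ι α a b c q = ⊤) :
    (⊥ : Subgroup (ATI ρ σ ι α a b c q)) ⊔ ⨆ i : TII a b c, stabI ρ σ ι α q i.2 = ⊤ := by
  rw [bot_sup_eq, eq_top_iff, ← h, stabsI, Subgroup.closure_le]
  rintro z ⟨b', c', j, l, h, hz⟩
  exact (le_iSup (fun i : TII a b c => stabI ρ σ ι α q i.2) ⟨(b', c', j, l), h⟩) hz

/-- The elements of class one. -/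
theorem mem_NA (ho : HOdd a q) {z : ATI ρ σ ι α a b c q} (hz : kapI z ∈ SqL k L) :
    z ∈ H.NA := by
  have ha : ∀ i : TII a b c, ∀ z ∈ stabI ρ σ ι α q i.2,
      kapHomI ρ σ ι α a b c q z ∈ SqL k L → z ∈ H.NA :=
    fun i z hz hc => H68.stab_NF H ho i.2 hz (isKapI_kapI z) hc
  have hd : ∀ i : TII a b c, stabI ρ σ ι α q i.2 ≤
      H.NA ⊔ stabI ρ σ ι α q (trip_std : Trip a b c (gi : Oct a b c) gj gl) := by
    intro i
    rw [stabI_std]
    exact stab_le H ho i.2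
  have hN : ∀ z ∈ H.NA, kapHomI ρ σ ι α a b c q z ∈ SqL k L := fun z hz =>
    H.kap_mem_of_NA hz
  exact H68.fin' H.NA H.NA_normal (SqL k L) (kapHomI ρ σ ι α a b c q)
    (fun i : TII a b c => stabI ρ σ ι α q i.2) ha (iSup_stabI (gen H)) hN
    ⟨(b, c, gj, gl), trip_std⟩ hd hz

theorem RsI_top (ho : HOdd a q) {g : OctL E a b c ≃ₗ[E] OctL E a b c}
    (hg : g ∈ GTI ρ σ ι α a b c q) : g ∈ RsI ρ σ ι α a b c q := by
  refine mem_of_isNI H g hg (mem_NA H ho ?_)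
  rw [kapI_of_GTI hg]
  exact Subgroup.one_mem _

/-- **D4I.** -/
theorem gt_top (ho : HOdd a q) (N : Subgroup (GTI ρ σ ι α a b c q)) (hN : N.index ≠ 0) :
    N = ⊤ := by
  have htop : fres (GTI ρ σ ι α a b c q) = ⊤ := by
    rw [eq_top_iff]
    rintro ⟨g, hg⟩ -
    obtain ⟨h2, h3⟩ := mem_RsI.1 (RsI_top H ho hg)
    exact h3
  exact fres_top_iff.1 htop N hN

end fin

end Vale.Agent.P011.D4I
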